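import Vale.Agent.P153C.Stmt
import Vale.Agent.P152.B2M

/-! Interfaces. -/

open MeasureTheory Filter Topology Set
open scoped InnerProductSpace ComplexConjugate

noncomputable section

namespace Vale.Agent.P153C

/-- Symmetric, reflection positive variograms. -/
structure RPV (V : ℤ × ℤ → ℝ) : Prop where
  zero : V 0 = 0
  nonneg : ∀ p, 0 ≤ V p
  rot : ∀ x y : ℤ, V (-y, x + y) = V (x, y)
  refl : ∀ x y : ℤ, V (x + y, -y) = V (x, y)
  sub : ∀ p q, V (p + q) ≤ 2 * V p + 2 * V q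
  rp : ∀ (s : Finset (ℤ × ℕ)) (f : ℤ × ℕ → ℝ), ∑ p ∈ s, f p = 0 →
    ∑ p ∈ s, ∑ q ∈ s, f p * f q * V (q.1 - p.1 - p.2, q.2 + p.2) ≤ 0

/-- The Hilbert space of increments. -/
structure Gns (V : ℤ × ℤ → ℝ) (K : Type) [NormedAddCommGroup K] [InnerProductSpace ℂ K]
    [CompleteSpace K] where
  T : K →L[ℂ] K
  U : K →L[ℂ] K
  e : ℤ × ℕ → K
  T_le : ‖T‖ ≤ 1
  U_uni : U ∈ unitary (K →L[ℂ] K)
  comm : Commute T U
  adj : star T * U = T
  e_T : ∀ x y, e (x, y + 1) = T (e (x, y)) + e (0, 1)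
  e_U : ∀ x y, e (x + 1, y) = U (e (x, y)) + e (1, 0)
  e_0 : e (0, 0) = 0
  nrm : ∀ p q : ℤ × ℕ, ‖e p - e q‖ ^ 2 =
    V (q.1 - p.1 - p.2, q.2 + p.2) - V (-p.2, 2 * p.2) / 2 - V (-q.2, 2 * q.2) / 2

/-- The joint spectrum. -/
def DDs : Set (ℂ × ℂ) := {z | ‖z.1‖ ≤ 1 ∧ ‖z.2‖ = 1 ∧ conj z.1 * z.2 = z.1}

theorem DDs_compact : IsCompact DDs := by
  refine Metric.isCompact_of_isClosed_isBounded ?_ ?_
  · exact (isClosed_le continuous_fst.norm continuous_const).inter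
      ((isClosed_eq continuous_snd.norm continuous_const).inter
        (isClosed_eq ((Complex.continuous_conj.comp continuous_fst).mul continuous_snd)
          continuous_fst))
  · refine (Metric.isBounded_closedBall (x := 0) (r := 1)).subset fun z hz => ?_
    rw [mem_closedBall_zero_iff, Prod.norm_def]
    exact max_le hz.1 hz.2.1.le

/-- The joint spectrum as a type. -/
abbrev DD : Type := ↥DDs

instance : CompactSpace DD := isCompact_iff_compactSpace.1 DDs_compact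

/-- First coordinate. -/
def lamF : C(DD, ℂ) := ⟨fun z => z.1.1, by fun_prop⟩

/-- Second coordinate. -/
def uF : C(DD, ℂ) := ⟨fun z => z.1.2, by fun_prop⟩

/-- Characters. -/
def chi (p : ℤ × ℕ) (z : DD) : ℂ := z.1.2 ^ p.1 * z.1.1 ^ p.2

/-- Real characters in polar coordinates `m = (r, φ)`. -/
def ch (x : ℤ) (y : ℕ) (m : ℝ × ℝ) : ℝ := m.1 ^ y * Real.cos ((2 * x + y) * m.2)

/-- The domain of the modes. -/
def Dom : Set (ℝ × ℝ) := {m | m.1 ∈ Icc (0 : ℝ) 1 ∧ m.2 ∈ Icc (-Real.pi) Real.pi ∧ m ≠ (1, 0)}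

/-- The distance to the trivial mode. -/
def gp (m : ℝ × ℝ) : ℝ := 1 - m.1 * Real.cos m.2

/-- Spectral representation. -/
structure Rep (V : ℤ × ℤ → ℝ) (ν : Measure (ℝ × ℝ)) (A : ℝ) : Prop where
  supp : ∀ᵐ m ∂ν, m ∈ Dom
  int : Integrable gp ν
  A0 : 0 ≤ A
  eq : ∀ (x : ℤ) (y : ℕ), Integrable (fun m => 1 - ch x y m) ν ∧
    V (x, y) = A * y + ∫ m, 2 * (1 - ch x y m) ∂ν

/-- `|1 - t e^{iψ}|^2`. -/
def nq (t ψ : ℝ) : ℝ := 1 - 2 * t * Real.cos ψ + t ^ 2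

/-- The integrand of the sum rule. -/
def Is (s : ℝ) (m : ℝ × ℝ) : ℝ :=
  Real.log (nq (s * m.1) (3 * m.2)) + Real.log (nq (s * m.1) m.2) -
    Real.log (nq (s * m.1 ^ 2) 0) - Real.log (nq s (2 * m.2))

/-- The energy of a mode. -/
def ca (m : ℝ × ℝ) : ℝ := -(2 / √3) * Real.log m.1

/-- Modes near the light cone. -/
def Cone (ε : ℝ) : Set (ℝ × ℝ) :=
  {m | 0 < m.1 ∧ 0 < ca m ∧ ca m ≤ ε ∧ |2 * |m.2| - ca m| ≤ ε * ca m}

/-- The fixed cone. -/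
def Near : Set (ℝ × ℝ) := Cone (1 / 10)

/-- Modes that can carry mass. -/
def Good : Set (ℝ × ℝ) :=
  {m | (m.1 < 1 ∧ Real.sin m.2 ≠ 0) ∨ (m.1 = 1 ∧ Real.cos (3 * m.2) = 1)}

/-- The kernel on the cone. -/
def J (x : ℝ) : ℝ := Real.log ((1 + √3 * x + 3 * x ^ 2) * (1 + √3 * x + x ^ 2) /
  ((1 + 2 * √3 * x + 3 * x ^ 2) * (1 + x ^ 2)))

/-- The scale weight. -/
def mn (x : ℝ) : ℝ := min x x⁻¹

/-- Output of the sum rule. -/
structure Ana (ν : Measure (ℝ × ℝ)) : Prop where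
  supp : ∀ᵐ m ∂ν, m ∈ Dom
  int : Integrable gp ν
  sum : ∀ s ∈ Ioo (0 : ℝ) 1, Integrable (Is s) ν ∧ ∫ m, Is s m ∂ν = 0

/-- Output of Fatou. -/
structure Ana2 (ν : Measure (ℝ × ℝ)) : Prop where
  good : ∀ᵐ m ∂ν, m ∈ Good
  int1 : Integrable (Is 1) ν
  fin : ∀ ε ∈ Ioc (0 : ℝ) (1 / 10), ν (Cone ε)ᶜ ≠ ⊤

/-- The measure of energies. -/
def rho (ν : Measure (ℝ × ℝ)) : Measure ℝ := (ν.restrict Near).map ca

/-- Bounded mass per scale. -/
structure Mass (ρ : Measure ℝ) (B : ℝ) : Prop where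
  pos : ∀ᵐ a ∂ρ, 0 < a
  le : ∀ δ > 0, Integrable (fun a => mn (a / δ)) ρ ∧ ∫ a, mn (a / δ) ∂ρ ≤ B

/-- The holomorphic comparison function. -/
def F (ρ : Measure ℝ) (δ : ℝ) (z : ℂ) : ℂ :=
  ∫ a : ℝ, (Complex.exp (-(a / δ : ℝ)) - Complex.exp (Complex.I * (a / δ : ℝ) * z)) ∂ρ

/-- Its derivative. -/
def F1 (ρ : Measure ℝ) (δ : ℝ) (z : ℂ) : ℂ :=
  ∫ a : ℝ, -(Complex.I * (a / δ : ℝ)) * Complex.exp (Complex.I * (a / δ : ℝ) * z) ∂ρ

/-- The running coefficient. -/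
def cf (ρ : Measure ℝ) (δ : ℝ) : ℝ := ∫ a, a / δ * Real.exp (-(a / δ)) ∂ρ

/-- The sixth root of unity. -/
def om : ℂ := ⟨1 / 2, √3 / 2⟩

theorem ca_meas : Measurable ca := by unfold ca; fun_prop

theorem cone_meas (ε : ℝ) : MeasurableSet (Cone ε) := by
  have h := ca_meas
  have h1 : Measurable fun m : ℝ × ℝ => |2 * |m.2| - ca m| := by fun_prop
  have h2 : Measurable fun m : ℝ × ℝ => ε * ca m := by fun_prop
  exact (measurableSet_lt measurable_const measurable_fst).inter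
    ((measurableSet_lt measurable_const h).inter ((measurableSet_le h measurable_const).inter
      (measurableSet_le h1 h2)))

theorem Is_meas (s : ℝ) : Measurable (Is s) := by unfold Is nq; fun_prop

end Vale.Agent.P153C
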