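import Vale.Agent.P153C.Defs

/-! Montel along an ultrafilter. F i is Lipschitz on {im >= y} (convex, norm_image_sub_le_of_norm_hasDerivWithin_le),
so bounded pointwise; limits exist (isCompact_closedBall.ultrafilter_le_nhds), equi-Lipschitz gives
TendstoLocallyUniformlyOn; TendstoLocallyUniformlyOn.differentiableOn and .deriv. -/

open MeasureTheory Filter Topology Set
open scoped InnerProductSpace ComplexConjugate

noncomputable section

namespace Vale.Agent.P153C

theorem montel {ι : Type} (l : Ultrafilter ι) {f f1 : ι → ℂ → ℂ} {B : ℝ}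
    (hd : ∀ᶠ i in l, f i Complex.I = 0 ∧ ∀ z : ℂ, 0 < z.im →
      HasDerivAt (f i) (f1 i z) z ∧ ‖f1 i z‖ ≤ B / z.im) :
    ∃ g : ℂ → ℂ, DifferentiableOn ℂ g {z | 0 < z.im} ∧ ∀ z : ℂ, 0 < z.im →
      Tendsto (fun i => f i z) l (𝓝 (g z)) ∧ Tendsto (fun i => f1 i z) l (𝓝 (deriv g z)) := by
  have hB : 0 ≤ B := by
    obtain ⟨i, hi⟩ := hd.exists
    simpa using (norm_nonneg _).trans (hi.2 Complex.I (by simp)).2
  have lip : ∀ᶠ i in l, ∀ y : ℝ, 0 < y → ∀ z w : ℂ, y ≤ z.im → y ≤ w.im →
      ‖f i w - f i z‖ ≤ B / y * ‖w - z‖ := by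
    filter_upwards [hd] with i hi y hy z w hz hw
    exact (convex_halfSpace_im_ge y).norm_image_sub_le_of_norm_hasDerivWithin_le (f' := f1 i)
      (fun x hx => (hi.2 x (hy.trans_le hx)).1.hasDerivWithinAt)
      (fun x hx => (hi.2 x (hy.trans_le hx)).2.trans (div_le_div_of_nonneg_left hB hy hx)) hz hw
  have ex : ∀ z : ℂ, ∃ a : ℂ, 0 < z.im → Tendsto (fun i => f i z) l (𝓝 a) := by
    intro z
    by_cases hz : 0 < z.im
    · obtain ⟨a, -, ha⟩ := (isCompact_closedBall (0 : ℂ)
        (B / min z.im 1 * ‖z - Complex.I‖)).ultrafilter_le_nhds (l.map fun i => f i z) (by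
          rw [le_principal_iff, Ultrafilter.coe_map, mem_map]
          filter_upwards [hd, lip] with i h1 h2
          have := h2 (min z.im 1) (lt_min hz one_pos) Complex.I z (by simp) (min_le_left _ _)
          rw [h1.1, sub_zero] at this
          simpa using this)
      exact ⟨a, fun _ => ha⟩
    · exact ⟨0, fun h => absurd h hz⟩
  choose g hg using ex
  have glip : ∀ y : ℝ, 0 < y → ∀ z w : ℂ, y ≤ z.im → y ≤ w.im →
      ‖g w - g z‖ ≤ B / y * ‖w - z‖ := fun y hy z w hz hw =>
    le_of_tendsto ((hg w (hy.trans_le hw)).sub (hg z (hy.trans_le hz))).norm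
      (lip.mono fun i hi => hi y hy z w hz hw)
  have ho : IsOpen {z : ℂ | 0 < z.im} := isOpen_lt continuous_const Complex.continuous_im
  have lu : TendstoLocallyUniformlyOn f g l {z | 0 < z.im} := by
    rw [Metric.tendstoLocallyUniformlyOn_iff]
    intro ε hε x hx
    have hx' : 0 < x.im := hx
    have hy : 0 < x.im / 2 := half_pos hx'
    have hL : 0 ≤ B / (x.im / 2) := div_nonneg hB hy.le
    have hr : 0 < ε / (3 * (B / (x.im / 2) + 1)) := by positivity
    refine ⟨Metric.ball x (ε / (3 * (B / (x.im / 2) + 1))) ∩ {z | x.im / 2 < z.im},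
      mem_nhdsWithin_of_mem_nhds (inter_mem (Metric.ball_mem_nhds x hr)
        ((isOpen_lt continuous_const Complex.continuous_im).mem_nhds (half_lt_self hx'))), ?_⟩
    filter_upwards [lip, Metric.tendsto_nhds.1 (hg x hx) (ε / 3) (by positivity)] with i h1 h2 w hw
    have k1 := glip _ hy x w (half_le_self hx'.le) (le_of_lt hw.2)
    have k2 := h1 _ hy x w (half_le_self hx'.le) (le_of_lt hw.2)
    have k3 : ‖w - x‖ * (3 * (B / (x.im / 2) + 1)) < ε :=
      (lt_div_iff₀ (by positivity)).1 (mem_ball_iff_norm.1 hw.1)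
    have k4 := dist_triangle4 (g w) (g x) (f i x) (f i w)
    rw [dist_comm (g x), dist_comm (f i x) (f i w), dist_eq_norm (g w) (g x),
      dist_eq_norm (f i w)] at k4
    nlinarith [norm_nonneg (w - x)]
  have df : ∀ᶠ i in l, DifferentiableOn ℂ (f i) {z | 0 < z.im} :=
    hd.mono fun i hi z hz => (hi.2 z hz).1.differentiableAt.differentiableWithinAt
  refine ⟨g, lu.differentiableOn df ho, fun z hz => ⟨hg z hz, ?_⟩⟩
  exact ((lu.deriv df ho).tendsto_at hz).congr' (hd.mono fun i hi => (hi.2 z hz).1.deriv)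

end Vale.Agent.P153C
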