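import Vale.Agent.P153C.B2
import Vale.Agent.P153C.B3

/-! Liouville step. tendsto_iff_ultrafilter; montel gives g; g (om z) - g z has zero real part on the open convex
sector, so its derivative vanishes (open mapping, or Cauchy-Riemann: HasDerivAt.real_of_complex in the directions 1, i);
G z = z * deriv g z satisfies rigid; g z - G i * log (z / i) has zero derivative on the convex half plane. -/

open MeasureTheory Filter Topology Set
open scoped InnerProductSpace ComplexConjugate

noncomputable section

namespace Vale.Agent.P153C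

theorem liou_re {h : ℂ → ℂ} {h' z : ℂ} (hh : HasDerivAt h h' z)
    (h0 : ∀ᶠ w in 𝓝 z, (h w).re = 0) : h' = 0 := by
  have h1 : HasFDerivAt (fun w => (h w).re)
      (Complex.reCLM.comp ((ContinuousLinearMap.toSpanSingleton ℂ h').restrictScalars ℝ)) z :=
    Complex.reCLM.hasFDerivAt.comp z (hh.hasFDerivAt.restrictScalars ℝ)
  have h2 : HasFDerivAt (fun w => (h w).re) (0 : ℂ →L[ℝ] ℝ) z :=
    (hasFDerivAt_const (0 : ℝ) z).congr_of_eventuallyEq h0
  have h3 := h1.unique h2
  have a := DFunLike.congr_fun h3 1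
  have b := DFunLike.congr_fun h3 Complex.I
  simp at a b
  exact Complex.ext a b

theorem liou_U {ι : Type} (l : Ultrafilter ι) {f f1 : ι → ℂ → ℂ} {B : ℝ}
    (hd : ∀ᶠ i in l, f i Complex.I = 0 ∧ ∀ z : ℂ, 0 < z.im →
      HasDerivAt (f i) (f1 i z) z ∧ ‖f1 i z‖ ≤ B / z.im)
    (hs : ∀ z : ℂ, 0 < z.im → 0 < (om * z).im →
      Tendsto (fun i => (f i (om * z)).re - (f i z).re) l (𝓝 0)) {z : ℂ} (hz : 0 < z.im) :
    Tendsto (fun i => z * f1 i z - Complex.I * f1 i Complex.I) l (𝓝 0) ∧
      Tendsto (fun i => f i z - Complex.I * f1 i Complex.I * Complex.log (z / Complex.I)) l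
        (𝓝 0) := by
  obtain ⟨g, hg, hl⟩ := montel l hd
  have hO : IsOpen {z : ℂ | 0 < z.im} := isOpen_lt continuous_const Complex.continuous_im
  have hI : 0 < Complex.I.im := by simp
  have hgd : ∀ w : ℂ, 0 < w.im → HasDerivAt g (deriv g w) w := fun w hw =>
    (hg.differentiableAt (hO.mem_nhds hw)).hasDerivAt
  have hre : ∀ w : ℂ, 0 < w.im → 0 < (om * w).im → (g (om * w) - g w).re = 0 := by
    intro w hw hw'
    have t : Tendsto (fun i => (f i (om * w)).re - (f i w).re) l
        (𝓝 ((g (om * w)).re - (g w).re)) :=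
      ((Complex.continuous_re.tendsto _).comp (hl _ hw').1).sub
        ((Complex.continuous_re.tendsto _).comp (hl _ hw).1)
    rw [Complex.sub_re]
    exact tendsto_nhds_unique t (hs w hw hw')
  have hinv : ∀ w : ℂ, 0 < w.im → 0 < (om * w).im → deriv g (om * w) * om = deriv g w := by
    intro w hw hw'
    have m : HasDerivAt (fun u : ℂ => om * u) om w := by
      simpa using (hasDerivAt_id w).const_mul om
    have d : HasDerivAt (fun u : ℂ => g (om * u) - g u) (deriv g (om * w) * om - deriv g w) w :=
      ((hgd _ hw').comp w m).sub (hgd _ hw)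
    have o : IsOpen {u : ℂ | 0 < (om * u).im} :=
      isOpen_lt continuous_const (Complex.continuous_im.comp (continuous_const.mul continuous_id))
    have e : ∀ᶠ u in 𝓝 w, (g (om * u) - g u).re = 0 := by
      filter_upwards [hO.mem_nhds hw, o.mem_nhds hw'] with u h1 h2 using hre u h1 h2
    exact sub_eq_zero.1 (liou_re d e)
  have hG : ∀ w : ℂ, 0 < w.im → w * deriv g w = Complex.I * deriv g Complex.I := by
    intro w hw
    refine rigid (G := fun u => u * deriv g u) (B := B)
      (differentiableOn_id.mul (hg.deriv hO)) ?_ ?_ hw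
    · intro u hu
      have b : ‖deriv g u‖ ≤ B / u.im :=
        le_of_tendsto (hl u hu).2.norm (hd.mono fun i hi => (hi.2 u hu).2)
      rw [norm_mul, mul_div_right_comm, mul_comm]
      exact mul_le_mul_of_nonneg_right b (norm_nonneg _)
    · intro u hu hu'
      rw [← hinv u hu hu']
      ring
  have hgI : g Complex.I = 0 :=
    tendsto_nhds_unique (hl _ hI).1
      (tendsto_const_nhds.congr' (hd.mono fun i hi => hi.1.symm))
  have hk : ∀ w : ℂ, 0 < w.im → HasDerivAt
      (fun u => g u - Complex.I * deriv g Complex.I * Complex.log (u / Complex.I)) 0 w := by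
    intro w hw
    have w0 : w ≠ 0 := fun h => by simp [h] at hw
    have sp : w / Complex.I ∈ Complex.slitPlane := Or.inl (by simpa using hw)
    have m : HasDerivAt (fun u : ℂ => u / Complex.I) (1 / Complex.I) w :=
      (hasDerivAt_id w).div_const Complex.I
    have d := (hgd w hw).sub ((m.clog sp).const_mul (Complex.I * deriv g Complex.I))
    have e : deriv g w - Complex.I * deriv g Complex.I * (1 / Complex.I / (w / Complex.I)) = 0 := by
      rw [← hG w hw]
      have := Complex.I_ne_zero
      field_simp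
      ring
    rw [e] at d
    exact d
  have hc := hO.is_const_of_deriv_eq_zero (convex_halfSpace_im_gt 0).isPreconnected
    (fun w hw => (hk w hw).differentiableAt.differentiableWithinAt)
    (fun w hw => (hk w hw).deriv) hz hI
  rw [hgI, div_self Complex.I_ne_zero, Complex.log_one, mul_zero, sub_zero] at hc
  constructor
  · have t := ((hl z hz).2.const_mul z).sub ((hl _ hI).2.const_mul Complex.I)
    rwa [hG z hz, sub_self] at t
  · have t := (hl z hz).1.sub
      (((hl _ hI).2.const_mul Complex.I).mul_const (Complex.log (z / Complex.I)))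
    rwa [hc] at t

theorem liou {ι : Type} {l : Filter ι} {f f1 : ι → ℂ → ℂ} {B : ℝ}
    (hd : ∀ᶠ i in l, f i Complex.I = 0 ∧ ∀ z : ℂ, 0 < z.im →
      HasDerivAt (f i) (f1 i z) z ∧ ‖f1 i z‖ ≤ B / z.im)
    (hs : ∀ z : ℂ, 0 < z.im → 0 < (om * z).im →
      Tendsto (fun i => (f i (om * z)).re - (f i z).re) l (𝓝 0)) {z : ℂ} (hz : 0 < z.im) :
    Tendsto (fun i => z * f1 i z - Complex.I * f1 i Complex.I) l (𝓝 0) ∧
      Tendsto (fun i => f i z - Complex.I * f1 i Complex.I * Complex.log (z / Complex.I)) l
        (𝓝 0) := by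
  constructor
  · exact (tendsto_iff_ultrafilter _ _ _).2 fun U hU =>
      (liou_U U (hd.filter_mono hU) (fun w h1 h2 => (hs w h1 h2).mono_left hU) hz).1
  · exact (tendsto_iff_ultrafilter _ _ _).2 fun U hU =>
      (liou_U U (hd.filter_mono hU) (fun w h1 h2 => (hs w h1 h2).mono_left hU) hz).2

end Vale.Agent.P153C
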