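import Vale.Agent.P153C.Defs

/-! Karamata. For psi = x e^-x P(e^-x), P a polynomial: linear combination of hk, int_0^oo e^(-(k+1)x) = 1/(k+1).
For psi continuous vanishing outside [1/M', M']: psi x = x e^-x f(e^-x), f continuous on [0,1], Weierstrass
(exists_polynomial_near_of_continuousOn), error <= eta * B. General psi: multiply by a continuous cutoff; off
[1/M, M] one has mn x <= (mn (x M) + mn (x / M)) / M, so the tails cost 2 C B / M (Mass at delta/M and delta M);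
the same for dx/x. -/

open MeasureTheory Filter Topology Set
open scoped InnerProductSpace ComplexConjugate

noncomputable section

namespace Vale.Agent.P153C

/-- Admissible functions. -/
def b5Cl (ψ : ℝ → ℝ) : Prop := ContinuousOn ψ (Ioi 0) ∧ ∃ C : ℝ, ∀ x > 0, |ψ x| ≤ C * mn x

/-- The defect. -/
def b5La (ρ : Measure ℝ) (ψ : ℝ → ℝ) (δ : ℝ) : ℝ :=
  (∫ a, ψ (a / δ) ∂ρ) - cf ρ δ * ∫ x in Ioi (0 : ℝ), ψ x / x

theorem b5_mn0 {x : ℝ} (hx : 0 < x) : 0 < mn x := lt_min hx (inv_pos.2 hx)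

theorem b5_mnc : ContinuousOn mn (Ioi 0) :=
  ContinuousOn.inf continuousOn_id (continuousOn_inv₀.mono fun _ hx => ne_of_gt hx)

theorem b5_xe {x : ℝ} (hx : 0 < x) : x * Real.exp (-x) ≤ 2 * mn x := by
  have h1 := Real.quadratic_le_exp_of_nonneg hx.le
  have h2 : Real.exp (-x) * Real.exp x = 1 := by rw [← Real.exp_add]; simp
  have h3 := Real.exp_pos (-x)
  have h4 : Real.exp (-x) ≤ 1 := Real.exp_le_one_iff.2 (by linarith)
  rw [mn, mul_min_of_nonneg _ _ (by norm_num : (0 : ℝ) ≤ 2)]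
  refine le_min (by nlinarith) ?_
  rw [← div_eq_mul_inv, le_div_iff₀ hx]
  nlinarith [mul_le_mul_of_nonneg_left h1 h3.le, mul_pos h3 hx]

theorem b5_int0 : IntegrableOn (fun x => mn x / x) (Ioi 0) := by
  refine Integrable.mono' (integrable_inv_one_add_sq.const_mul 2).integrableOn
    ((b5_mnc.div continuousOn_id fun _ hx => ne_of_gt hx).aestronglyMeasurable measurableSet_Ioi) ?_
  filter_upwards [ae_restrict_mem measurableSet_Ioi] with x hx
  have hx : 0 < x := hx
  rw [Real.norm_of_nonneg (div_pos (b5_mn0 hx) hx).le, ← div_eq_mul_inv,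
    div_le_div_iff₀ hx (by positivity)]
  have h1 : mn x ≤ x := min_le_left _ _
  have h2 : mn x * x ≤ 1 := by
    have := mul_le_mul_of_nonneg_right (min_le_right x x⁻¹) hx.le
    rwa [inv_mul_cancel₀ hx.ne'] at this
  nlinarith [mul_le_mul_of_nonneg_right h2 hx.le]

theorem b5_sc {s : ℝ} (hs : 0 < s) : IntegrableOn (fun x => mn (x * s) / x) (Ioi 0) ∧
    ∫ x in Ioi (0 : ℝ), mn (x * s) / x = ∫ x in Ioi (0 : ℝ), mn x / x := by
  have e : (fun x => mn (x * s) / x) = fun x => s * (mn (x * s) / (x * s)) := by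
    funext x
    by_cases hx : x = 0
    · simp [hx]
    · field_simp
  rw [e]
  constructor
  · refine Integrable.const_mul ?_ s
    exact (integrableOn_Ioi_comp_mul_right_iff (fun x => mn x / x) 0 hs).2 (by simpa using b5_int0)
  · rw [integral_const_mul, integral_comp_mul_right_Ioi (fun x => mn x / x) 0 hs, zero_mul,
      smul_eq_mul, mul_inv_cancel_left₀ hs.ne']

theorem b5Cl.add {ψ φ : ℝ → ℝ} (h : b5Cl ψ) (h' : b5Cl φ) : b5Cl fun x => ψ x + φ x := by
  obtain ⟨h1, C, h2⟩ := h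
  obtain ⟨h3, D, h4⟩ := h'
  refine ⟨h1.add h3, C + D, fun x hx => (abs_add_le _ _).trans ?_⟩
  linarith [h2 x hx, h4 x hx]

theorem b5Cl.neg {ψ : ℝ → ℝ} (h : b5Cl ψ) : b5Cl fun x => -ψ x := by
  obtain ⟨h1, C, h2⟩ := h
  exact ⟨h1.neg, C, fun x hx => by rw [abs_neg]; exact h2 x hx⟩

theorem b5Cl.intr {ρ : Measure ℝ} {B : ℝ} (h : Mass ρ B) {ψ : ℝ → ℝ} (hψ : b5Cl ψ) {δ : ℝ}
    (hδ : 0 < δ) : Integrable (fun a => ψ (a / δ)) ρ := by
  obtain ⟨h1, C, h2⟩ := hψ
  refine Integrable.mono' ((h.le δ hδ).1.const_mul C) ?_ ?_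
  · have e : ρ.restrict (Ioi 0) = ρ := Measure.restrict_eq_self_of_ae_mem h.pos
    rw [← e]
    exact (h1.comp (continuousOn_id.div_const δ) fun x hx => div_pos hx hδ).aestronglyMeasurable
      measurableSet_Ioi
  · filter_upwards [h.pos] with a ha using h2 _ (div_pos ha hδ)

theorem b5Cl.intx {ψ : ℝ → ℝ} (hψ : b5Cl ψ) : IntegrableOn (fun x => ψ x / x) (Ioi 0) := by
  obtain ⟨h1, C, h2⟩ := hψ
  refine Integrable.mono' (b5_int0.const_mul C)
    ((h1.div continuousOn_id fun _ hx => ne_of_gt hx).aestronglyMeasurable measurableSet_Ioi) ?_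
  filter_upwards [ae_restrict_mem measurableSet_Ioi] with x hx
  have hx : 0 < x := hx
  rw [Real.norm_eq_abs, abs_div, abs_of_pos hx, ← mul_div_assoc]
  exact div_le_div_of_nonneg_right (h2 x hx) hx.le

theorem b5_add {ρ : Measure ℝ} {B : ℝ} (h : Mass ρ B) {ψ φ : ℝ → ℝ} (hψ : b5Cl ψ) (hφ : b5Cl φ)
    {δ : ℝ} (hδ : 0 < δ) : b5La ρ (fun x => ψ x + φ x) δ = b5La ρ ψ δ + b5La ρ φ δ := by
  simp only [b5La, add_div]
  rw [integral_add (hψ.intr h hδ) (hφ.intr h hδ), integral_add hψ.intx hφ.intx]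
  ring

theorem b5_poly {ρ : Measure ℝ} {B : ℝ} (h : Mass ρ B)
    (hk : ∀ k : ℕ, Tendsto (fun δ => (∫ a, a / δ * Real.exp (-((k + 1) * (a / δ))) ∂ρ) -
      cf ρ δ / (k + 1)) (𝓝[>] 0) (𝓝 0)) (P : Polynomial ℝ) :
    b5Cl (fun x => x * Real.exp (-x) * P.eval (Real.exp (-x))) ∧
      Tendsto (b5La ρ fun x => x * Real.exp (-x) * P.eval (Real.exp (-x))) (𝓝[>] 0) (𝓝 0) := by
  induction P using Polynomial.induction_on' with
  | add p q hp hq =>
    simp only [Polynomial.eval_add, mul_add]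
    refine ⟨hp.1.add hq.1, ?_⟩
    have := hp.2.add hq.2
    rw [add_zero] at this
    refine this.congr' ?_
    filter_upwards [self_mem_nhdsWithin] with δ hδ using (b5_add h hp.1 hq.1 hδ).symm
  | monomial n c =>
    have e : (fun x : ℝ => x * Real.exp (-x) * (Polynomial.monomial n c).eval (Real.exp (-x))) =
        fun x => c * (x * Real.exp (-((n + 1) * x))) := by
      funext x
      rw [Polynomial.eval_monomial, ← Real.exp_nat_mul,
        show -((n + 1) * x) = -x + n * -x by ring, Real.exp_add]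
      ring
    rw [e]
    refine ⟨⟨by fun_prop, |c| * 2, fun x hx => ?_⟩, ?_⟩
    · rw [abs_mul, mul_assoc, abs_of_pos (by positivity : 0 < x * Real.exp (-((n + 1) * x)))]
      refine mul_le_mul_of_nonneg_left (le_trans ?_ (b5_xe hx)) (abs_nonneg c)
      refine mul_le_mul_of_nonneg_left (Real.exp_le_exp.2 ?_) hx.le
      nlinarith [mul_nonneg (Nat.cast_nonneg (α := ℝ) n) hx.le]
    · have h1 : ∫ x in Ioi (0 : ℝ), c * (x * Real.exp (-((n + 1) * x))) / x = c / (n + 1) := by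
        have h2 := integral_exp_mul_Ioi (a := -((n : ℝ) + 1)) (neg_neg_of_pos (by positivity)) 0
        rw [setIntegral_congr_fun measurableSet_Ioi (g := fun x => c * Real.exp (-(n + 1) * x))
          fun x hx => ?_, integral_const_mul, h2]
        · simp [div_eq_mul_inv, -neg_add_rev]
        · have hx : 0 < x := hx
          simp only [neg_mul]
          field_simp
      have := (hk n).const_mul c
      rw [mul_zero] at this
      refine this.congr fun δ => ?_
      simp only [b5La]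
      rw [integral_const_mul, h1]
      ring

theorem b5_bound {ρ : Measure ℝ} {B : ℝ} (h : Mass ρ B) {φ : ℝ → ℝ} {θ M δ : ℝ}
    (hθ : 0 < θ) (hM : 0 < M) (hδ : 0 < δ)
    (hb : ∀ x > 0, |φ x| ≤ θ * (mn x + mn (x * M) + mn (x * M⁻¹))) :
    |b5La ρ φ δ| ≤ (3 * B + 2 * B * (3 * ∫ x in Ioi (0 : ℝ), mn x / x)) * θ := by
  obtain ⟨i1, j1⟩ := h.le δ hδ
  obtain ⟨i2, j2⟩ := h.le (δ / M) (div_pos hδ hM)
  obtain ⟨i3, j3⟩ := h.le (δ * M) (mul_pos hδ hM)
  obtain ⟨i4, j4⟩ := b5_sc hM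
  obtain ⟨i5, j5⟩ := b5_sc (inv_pos.2 hM)
  have a1 : |∫ a, φ (a / δ) ∂ρ| ≤ θ * (3 * B) := by
    rw [← Real.norm_eq_abs]
    refine (norm_integral_le_of_norm_le (((i1.add i2).add i3).const_mul θ) ?_).trans ?_
    · filter_upwards [h.pos] with a ha
      have := hb _ (div_pos ha hδ)
      rwa [show a / δ * M = a / (δ / M) by field_simp,
        show a / δ * M⁻¹ = a / (δ * M) by field_simp] at this
    · rw [integral_const_mul, integral_add' (i1.add i2) i3, integral_add' i1 i2]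
      exact mul_le_mul_of_nonneg_left (by linarith) hθ.le
  have a2 : |∫ x in Ioi (0 : ℝ), φ x / x| ≤ θ * (3 * ∫ x in Ioi (0 : ℝ), mn x / x) := by
    rw [← Real.norm_eq_abs]
    refine (norm_integral_le_of_norm_le (((b5_int0.add i4).add i5).const_mul θ) ?_).trans ?_
    · filter_upwards [ae_restrict_mem measurableSet_Ioi] with x hx
      have hx : 0 < x := hx
      simp only [Pi.add_apply]
      rw [Real.norm_eq_abs, abs_div, abs_of_pos hx, ← add_div, ← add_div, ← mul_div_assoc]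
      exact div_le_div_of_nonneg_right (hb x hx) hx.le
    · rw [integral_const_mul, integral_add' (b5_int0.add i4) i5, integral_add' b5_int0 i4, j4, j5]
      exact mul_le_mul_of_nonneg_left (by linarith) hθ.le
  have a3 : |cf ρ δ| ≤ 2 * B := by
    rw [← Real.norm_eq_abs, cf]
    refine (norm_integral_le_of_norm_le (i1.const_mul 2) ?_).trans ?_
    · filter_upwards [h.pos] with a ha
      rw [Real.norm_of_nonneg (by positivity)]
      exact b5_xe (div_pos ha hδ)
    · rw [integral_const_mul]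
      linarith
  refine (abs_sub _ _).trans ?_
  rw [abs_mul]
  have := mul_le_mul a3 a2 (abs_nonneg _) ((abs_nonneg _).trans a3)
  linarith

theorem b5_apx {ψ : ℝ → ℝ} (hc : ContinuousOn ψ (Ioi 0)) {C : ℝ}
    (hb : ∀ x > 0, |ψ x| ≤ C * mn x) {θ : ℝ} (hθ : 0 < θ) : ∃ M > 0, ∃ P : Polynomial ℝ, ∀ x > 0,
      |ψ x + -(x * Real.exp (-x) * P.eval (Real.exp (-x)))| ≤
        θ * (mn x + mn (x * M) + mn (x * M⁻¹)) := by
  obtain ⟨M, hM, hC⟩ : ∃ M : ℝ, 1 ≤ M ∧ C ≤ θ * M :=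
    ⟨max 1 (C / θ), le_max_left _ _, (div_le_iff₀' hθ).1 (le_max_right _ _)⟩
  have hM0 : 0 < M := by linarith
  have ha := Real.exp_pos (-M)
  have hb1 : Real.exp (-M⁻¹) < 1 := Real.exp_lt_one_iff.2 (neg_neg_of_pos (inv_pos.2 hM0))
  obtain ⟨χ, h0, h1, h2⟩ := exists_continuous_zero_one_of_isClosed
    (s := (Ioo (Real.exp (-M) / 2) ((1 + Real.exp (-M⁻¹)) / 2))ᶜ)
    (t := Icc (Real.exp (-M)) (Real.exp (-M⁻¹))) isOpen_Ioo.isClosed_compl isClosed_Icc
    (disjoint_compl_left_iff_subset.2 fun y hy => ⟨by linarith [hy.1], by linarith [hy.2]⟩)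
  have hf : Continuous fun y => χ y * (ψ (-Real.log y) / (-Real.log y * y)) := by
    have hl : ContinuousOn (fun y => -Real.log y) (Ioo 0 1) :=
      (Real.continuousOn_log.mono fun y hy => ne_of_gt hy.1).neg
    have hp : ∀ y ∈ Ioo (0 : ℝ) 1, 0 < -Real.log y := fun y hy => neg_pos.2 (Real.log_neg hy.1 hy.2)
    refine ContinuousOn.continuous_of_tsupport_subset (s := Ioo 0 1)
      (χ.continuous.continuousOn.mul ((hc.comp hl hp).div (hl.mul continuousOn_id)
        fun y hy => (mul_pos (hp y hy) hy.1).ne')) isOpen_Ioo ?_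
    refine (closure_minimal (t := Icc (Real.exp (-M) / 2) ((1 + Real.exp (-M⁻¹)) / 2))
      (fun y hy => Ioo_subset_Icc_self ?_) isClosed_Icc).trans
      fun y hy => ⟨by linarith [hy.1], by linarith [hy.2]⟩
    by_contra hn
    exact hy (by simp [h0 hn])
  obtain ⟨P, hP⟩ := exists_polynomial_near_of_continuousOn 0 1 _ hf.continuousOn (θ / 2)
    (by linarith)
  refine ⟨M, hM0, P, fun x hx => ?_⟩
  have hy := Real.exp_pos (-x)
  have h3 := hP (Real.exp (-x)) ⟨hy.le, Real.exp_le_one_iff.2 (by linarith)⟩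
  rw [Real.log_exp, neg_neg] at h3
  have e : ψ x + -(x * Real.exp (-x) * P.eval (Real.exp (-x))) = (1 - χ (Real.exp (-x))) * ψ x -
      x * Real.exp (-x) * (P.eval (Real.exp (-x)) -
        χ (Real.exp (-x)) * (ψ x / (x * Real.exp (-x)))) := by
    field_simp
    ring
  have h4 := mul_le_mul (b5_xe hx) h3.le (abs_nonneg _) (mul_pos two_pos (b5_mn0 hx)).le
  have m1 := b5_mn0 (mul_pos hx hM0)
  have m2 := b5_mn0 (mul_pos hx (inv_pos.2 hM0))
  have h5 : |(1 - χ (Real.exp (-x))) * ψ x| ≤ θ * (mn (x * M) + mn (x * M⁻¹)) := by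
    by_cases hm : Real.exp (-x) ∈ Icc (Real.exp (-M)) (Real.exp (-M⁻¹))
    · rw [h1 hm]
      simp only [Pi.one_apply, sub_self, zero_mul, abs_zero]
      positivity
    · have h6 : M * mn x ≤ mn (x * M) + mn (x * M⁻¹) := by
        rw [mem_Icc, Real.exp_le_exp, Real.exp_le_exp, not_and_or, not_le, not_le] at hm
        rcases hm with hm | hm
        · have h7 : M * x⁻¹ ≤ mn (x * M⁻¹) := by
            refine le_min ?_ (by rw [mul_inv, inv_inv, mul_comm])
            rw [← div_eq_mul_inv, ← div_eq_mul_inv, div_le_div_iff₀ hx hM0]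
            nlinarith
          have h11 : mn x ≤ x⁻¹ := min_le_right _ _
          linarith [mul_le_mul_of_nonneg_left h11 hM0.le]
        · have h8 : x * M ≤ 1 := by
            have := mul_le_mul_of_nonneg_right (show x ≤ M⁻¹ by linarith) hM0.le
            rwa [inv_mul_cancel₀ hM0.ne'] at this
          have h7 : x * M ≤ mn (x * M) :=
            le_min le_rfl (h8.trans ((one_le_inv₀ (mul_pos hx hM0)).2 h8))
          have h11 : mn x ≤ x := min_le_left _ _
          linarith [mul_le_mul_of_nonneg_left h11 hM0.le]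
      have h9 := h2 (Real.exp (-x))
      rw [abs_mul, abs_of_nonneg (sub_nonneg.2 h9.2)]
      have h10 := mul_le_mul_of_nonneg_right (show 1 - χ (Real.exp (-x)) ≤ 1 by linarith [h9.1])
        (abs_nonneg (ψ x))
      linarith [hb x hx, mul_le_mul_of_nonneg_right hC (b5_mn0 hx).le,
        mul_le_mul_of_nonneg_left h6 hθ.le]
  rw [e]
  refine (abs_sub _ _).trans ?_
  rw [abs_mul (x * Real.exp (-x)), abs_of_pos (mul_pos hx hy)]
  linarith

theorem karamata {ρ : Measure ℝ} {B : ℝ} (h : Mass ρ B)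
    (hk : ∀ k : ℕ, Tendsto (fun δ => (∫ a, a / δ * Real.exp (-((k + 1) * (a / δ))) ∂ρ) -
      cf ρ δ / (k + 1)) (𝓝[>] 0) (𝓝 0))
    {ψ : ℝ → ℝ} (hc : ContinuousOn ψ (Ioi 0)) {C : ℝ} (hb : ∀ x > 0, |ψ x| ≤ C * mn x) :
    Tendsto (fun δ => (∫ a, ψ (a / δ) ∂ρ) - cf ρ δ * ∫ x in Ioi (0 : ℝ), ψ x / x)
      (𝓝[>] 0) (𝓝 0) := by
  refine Metric.tendsto_nhds.2 fun ε hε => ?_
  obtain ⟨θ, hθ, h1⟩ := exists_pos_mul_lt (half_pos hε)
    (3 * B + 2 * B * (3 * ∫ x in Ioi (0 : ℝ), mn x / x))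
  obtain ⟨M, hM, P, hP⟩ := b5_apx hc hb hθ
  obtain ⟨h2, h3⟩ := b5_poly h hk P
  have hψ : b5Cl ψ := ⟨hc, C, hb⟩
  filter_upwards [self_mem_nhdsWithin, Metric.tendsto_nhds.1 h3 _ (half_pos hε)] with δ hδ h4
  have h5 := b5_bound h hθ hM hδ hP
  have h6 := b5_add h (hψ.add h2.neg) h2 hδ
  simp only [neg_add_cancel_right] at h6
  rw [Real.dist_eq, sub_zero] at h4 ⊢
  show |b5La ρ ψ δ| < ε
  rw [h6]
  linarith [abs_add_le (b5La ρ (fun x => ψ x + -(x * Real.exp (-x) * P.eval (Real.exp (-x)))) δ)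
    (b5La ρ (fun x => x * Real.exp (-x) * P.eval (Real.exp (-x))) δ)]

end Vale.Agent.P153C
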