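import Vale.Agent.P153C.R1a
import Vale.Agent.P152.A8H

/-! GNS. Kernel k p q = (V p + V q - V (q.1-p.1-p.2, q.2+p.2))/2 on Z x N (real symmetric, positive: rp applied to
c - (sum c) delta_0, real and imaginary parts separately). Copy the RKHS construction of P152.gns_space, use P152.ext_op
with g p = e (p + t) - e t for t = (0,1) (contr), (1,0), (-1,0) (isometries), ext_eq for comm, adj, unitarity:
<e(p+t) - e t, e q> = <e p, e(q+t') - e t'> with t' = (-t.1-t.2, t.2). -/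

open MeasureTheory Filter Topology Set
open scoped InnerProductSpace ComplexConjugate

noncomputable section

namespace Vale.Agent.P153C

theorem r1_re {X : Type} (k : X → X → ℝ) (s : Finset X) (c : X → ℂ) :
    (∑ x ∈ s, ∑ y ∈ s, conj (c x) * c y * (k x y : ℂ)).re =
      ∑ x ∈ s, ∑ y ∈ s, (c x).re * (c y).re * k x y + ∑ x ∈ s, ∑ y ∈ s, (c x).im * (c y).im * k x y := by
  rw [Complex.re_sum, ← Finset.sum_add_distrib]
  refine Finset.sum_congr rfl fun x _ => ?_
  rw [Complex.re_sum, ← Finset.sum_add_distrib]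
  refine Finset.sum_congr rfl fun y _ => ?_
  simp only [Complex.mul_re, Complex.conj_re, Complex.conj_im, Complex.ofReal_re, Complex.ofReal_im]
  ring

theorem r1_space {X : Type} (k : X → X → ℝ) (hs : ∀ x y, k x y = k y x)
    (hp : ∀ (s : Finset X) (f : X → ℝ), 0 ≤ ∑ x ∈ s, ∑ y ∈ s, f x * f y * k x y) :
    ∃ (H : Type) (_ : NormedAddCommGroup H) (_ : InnerProductSpace ℂ H) (_ : CompleteSpace H)
      (e : X → H), (∀ x y, ⟪e x, e y⟫_ℂ = (k x y : ℂ)) ∧ Dense (Submodule.span ℂ (range e) : Set H) := by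
  let Kc : Matrix X X (ℂ →L[ℂ] ℂ) := Matrix.of fun x y => (k x y : ℂ) • (1 : ℂ →L[ℂ] ℂ)
  have hH : Kc.IsHermitian := by
    ext x y
    simp only [Kc, Matrix.conjTranspose_apply, Matrix.of_apply, star_smul, star_one, Complex.star_def,
      Complex.conj_ofReal, hs y x]
  have hP : Kc.PosSemidef := by
    have key : Kc.IsHermitian ∧ ∀ c : X →₀ ℂ,
        0 ≤ RCLike.re (c.sum fun x w => c.sum fun x' w' => ⟪Kc x' x w, w'⟫_ℂ) := ?_
    · exact (RKHS.posSemidef_tfae.out 2 0).mp key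
    refine ⟨hH, fun c => ?_⟩
    have h1 : 0 ≤ (∑ x ∈ c.support, ∑ y ∈ c.support, conj (c x) * c y * (k x y : ℂ)).re := by
      rw [r1_re]
      exact add_nonneg (hp _ fun x => (c x).re) (hp _ fun x => (c x).im)
    refine le_of_le_of_eq h1 ?_
    simp only [Finsupp.sum, RCLike.re_to_complex]
    refine congrArg Complex.re ?_
    refine Finset.sum_congr rfl fun x _ => Finset.sum_congr rfl fun y _ => ?_
    simp only [Kc, Matrix.of_apply, _root_.smul_apply,
      one_apply_eq_self, smul_eq_mul, RCLike.inner_apply, map_mul, Complex.conj_ofReal, hs y x]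
    ring
  have : Fact Kc.PosSemidef := ⟨hP⟩
  refine ⟨RKHS.OfKernel Kc, inferInstance, inferInstance, inferInstance,
    fun x => RKHS.kerFun (RKHS.OfKernel Kc) x 1, fun x y => ?_, ?_⟩
  · rw [← RKHS.kernel_inner, RKHS.OfKernel.kernel_ofKernel]
    simp [Kc, hs y x]
  · rw [Submodule.dense_iff_topologicalClosure_eq_top, eq_top_iff,
      ← RKHS.kerFun_dense (RKHS.OfKernel Kc)]
    refine Submodule.topologicalClosure_mono (Submodule.span_le.2 ?_)
    rintro _ ⟨x, v, rfl⟩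
    have : RKHS.kerFun (RKHS.OfKernel Kc) x v = v • RKHS.kerFun (RKHS.OfKernel Kc) x 1 := by
      rw [← map_smul, smul_eq_mul, mul_one]
    rw [this]
    exact Submodule.smul_mem _ _ (Submodule.subset_span ⟨x, rfl⟩)

theorem r1_norm {X H : Type} [NormedAddCommGroup H] [InnerProductSpace ℂ H] {e : X → H}
    {k : X → X → ℝ} (he : ∀ x y, ⟪e x, e y⟫_ℂ = (k x y : ℂ)) (c : X →₀ ℂ) :
    ‖Finsupp.linearCombination ℂ e c‖ ^ 2 =
      ∑ x ∈ c.support, ∑ y ∈ c.support, (c x).re * (c y).re * k x y +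
        ∑ x ∈ c.support, ∑ y ∈ c.support, (c x).im * (c y).im * k x y := by
  have h2 : (⟪Finsupp.linearCombination ℂ e c, Finsupp.linearCombination ℂ e c⟫_ℂ).re =
      ‖Finsupp.linearCombination ℂ e c‖ ^ 2 := inner_self_eq_norm_sq (𝕜 := ℂ) _
  rw [← h2, Vale.Agent.P152.A8H_inner, ← r1_re]
  simp only [he]

theorem r1_ext {X H : Type} [NormedAddCommGroup H] [InnerProductSpace ℂ H] [CompleteSpace H]
    {e g : X → H} {k k' : X → X → ℝ} (hd : Dense (Submodule.span ℂ (range e) : Set H))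
    (he : ∀ x y, ⟪e x, e y⟫_ℂ = (k x y : ℂ)) (hg : ∀ x y, ⟪g x, g y⟫_ℂ = (k' x y : ℂ))
    (hp : ∀ (s : Finset X) (f : X → ℝ),
      ∑ x ∈ s, ∑ y ∈ s, f x * f y * k' x y ≤ ∑ x ∈ s, ∑ y ∈ s, f x * f y * k x y) :
    ∃ T : H →L[ℂ] H, ‖T‖ ≤ 1 ∧ ∀ x, T (e x) = g x := by
  refine Vale.Agent.P152.ext_op hd fun c => ?_
  refine le_of_sq_le_sq ?_ (norm_nonneg _)
  rw [r1_norm he, r1_norm hg]
  exact add_le_add (hp _ fun x => (c x).re) (hp _ fun x => (c x).im)

theorem r1_base {X : Type} (o : X) (s : Finset X) (f : X → ℝ) :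
    ∃ (s' : Finset X) (G : X → ℝ), ∑ x ∈ s', G x = 0 ∧ ∀ W : X → X → ℝ,
      ∑ x ∈ s, ∑ y ∈ s, f x * f y * ((W x o + W o y - W x y - W o o) / 2) =
        -(∑ x ∈ s', ∑ y ∈ s', G x * G y * W x y) / 2 := by
  classical
  have key : ∀ g : X → ℝ, ∑ x ∈ insert o s,
      ((if x ∈ s then f x else 0) - (if x = o then ∑ z ∈ s, f z else 0)) * g x =
        ∑ x ∈ s, f x * g x - (∑ z ∈ s, f z) * g o := by
    intro g
    simp only [sub_mul, Finset.sum_sub_distrib, ite_mul, zero_mul]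
    rw [Finset.sum_ite_mem, Finset.inter_eq_right.2 (Finset.subset_insert o s), Finset.sum_ite_eq',
      if_pos (Finset.mem_insert_self o s)]
  refine ⟨insert o s, fun x => (if x ∈ s then f x else 0) - (if x = o then ∑ z ∈ s, f z else 0), ?_,
    fun W => ?_⟩
  · have := key fun _ => 1
    simpa only [mul_one, sub_self] using this
  · simp only [mul_assoc, ← Finset.mul_sum, key]
    have e1 : ∀ x, ∑ y ∈ s, f y * ((W x o + W o y - W x y - W o o) / 2) =
        ((∑ z ∈ s, f z) * W x o + ∑ y ∈ s, f y * W o y - ∑ y ∈ s, f y * W x y -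
          (∑ z ∈ s, f z) * W o o) / 2 := by
      intro x
      rw [Finset.sum_mul, Finset.sum_mul, ← Finset.sum_add_distrib, ← Finset.sum_sub_distrib,
        ← Finset.sum_sub_distrib, Finset.sum_div]
      exact Finset.sum_congr rfl fun y _ => by ring
    simp only [e1]
    generalize (∑ y ∈ s, f y * W o y) = B
    have e2 : ∀ S : ℝ, ∑ x ∈ s, f x * ((S * W x o + B - ∑ y ∈ s, f y * W x y - S * W o o) / 2) =
        -(∑ x ∈ s, f x * (∑ y ∈ s, f y * W x y - S * W x o) - (∑ z ∈ s, f z) * (B - S * W o o)) / 2 := by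
      intro S
      rw [Finset.sum_mul, ← Finset.sum_sub_distrib, ← Finset.sum_neg_distrib, Finset.sum_div]
      exact Finset.sum_congr rfl fun y _ => by ring
    exact e2 _

/-- The reflected variogram. -/
def r1W (V : ℤ × ℤ → ℝ) (p q : ℤ × ℕ) : ℝ := V (q.1 - p.1 - p.2, q.2 + p.2)

theorem r1W_symm {V : ℤ × ℤ → ℝ} (h : RPV V) (p q : ℤ × ℕ) : r1W V p q = r1W V q p := by
  unfold r1W
  rw [← h.star]
  exact congrArg V (Prod.ext (by simp only; ring) (by simp only; ring))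

theorem gns {V : ℤ × ℤ → ℝ} (h : RPV V) : ∃ (K : Type) (_ : NormedAddCommGroup K)
    (_ : InnerProductSpace ℂ K) (_ : CompleteSpace K), Nonempty (Gns V K) := by
  obtain ⟨K, i1, i2, i3, e, he, hd⟩ := r1_space
    (fun p q => (r1W V p 0 + r1W V 0 q - r1W V p q - r1W V 0 0) / 2)
    (fun p q => by rw [r1W_symm h p q, r1W_symm h p 0, r1W_symm h 0 q]; ring)
    (fun s f => by
      obtain ⟨s', G, hG, hW⟩ := r1_base (0 : ℤ × ℕ) s f
      rw [hW (r1W V)]
      have h1 : ∑ x ∈ s', ∑ y ∈ s', G x * G y * r1W V x y ≤ 0 := h.rp s' G hG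
      linarith)
  refine ⟨K, i1, i2, i3, ?_⟩
  have hin : ∀ x x' y y', ⟪e x - e x', e y - e y'⟫_ℂ =
      (((r1W V x y' + r1W V x' y - r1W V x y - r1W V x' y') / 2 : ℝ) : ℂ) := by
    intro x x' y y'
    rw [inner_sub_left, inner_sub_right, inner_sub_right, he, he, he, he]
    push_cast
    ring
  have e0 : e 0 = 0 := by
    rw [← inner_self_eq_zero (𝕜 := ℂ), he]
    simp
  have hop : ∀ t : ℤ × ℕ, (∀ (s : Finset (ℤ × ℕ)) (f : ℤ × ℕ → ℝ), ∑ p ∈ s, f p = 0 →
      ∑ p ∈ s, ∑ q ∈ s, f p * f q * r1W V p q ≤ ∑ p ∈ s, ∑ q ∈ s, f p * f q * r1W V (p + t) (q + t)) →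
      ∃ T : K →L[ℂ] K, ‖T‖ ≤ 1 ∧ ∀ x, T (e x) = e (x + t) - e (0 + t) := by
    intro t ht
    refine r1_ext hd he (fun x y => hin (x + t) (0 + t) (y + t) (0 + t)) fun s f => ?_
    obtain ⟨s', G, hG, hW⟩ := r1_base (0 : ℤ × ℕ) s f
    rw [hW (r1W V), hW fun p q => r1W V (p + t) (q + t)]
    have := ht s' G hG
    linarith
  have wa : ∀ p q : ℤ × ℕ, r1W V (p + (0, 1)) (q + (0, 1)) = V (q.1 - p.1 - p.2 - 1, q.2 + p.2 + 2) := by
    intro p q
    unfold r1W
    refine congrArg V (Prod.ext ?_ ?_) <;> simp only [Prod.fst_add, Prod.snd_add] <;> push_cast <;> ring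
  have wb : ∀ (n : ℤ) (p q : ℤ × ℕ), r1W V (p + (n, 0)) (q + (n, 0)) = r1W V p q := by
    intro n p q
    unfold r1W
    refine congrArg V (Prod.ext ?_ ?_) <;> simp only [Prod.fst_add, Prod.snd_add] <;> push_cast <;> ring
  have wc : ∀ p q : ℤ × ℕ, r1W V (p + (0, 1)) (q + (1, 0)) = r1W V p (q + (0, 1)) := by
    intro p q
    unfold r1W
    refine congrArg V (Prod.ext ?_ ?_) <;> simp only [Prod.fst_add, Prod.snd_add] <;> push_cast <;> ring
  obtain ⟨T, hT1, hT⟩ := hop (0, 1) fun s f hf => by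
    simp only [wa]
    exact h.contr s f hf
  obtain ⟨U, -, hU⟩ := hop (1, 0) fun s f _ => by simp only [wb, le_refl]
  obtain ⟨U', -, hU'⟩ := hop (-1, 0) fun s f _ => by simp only [wb, le_refl]
  have hext : ∀ A B : K →L[ℂ] K, (∀ y, A (e y) = B (e y)) → A = B := fun A B hAB =>
    Vale.Agent.P152.ext_eq hd fun x y => by rw [hAB]
  have u1 : star U * U = 1 := by
    refine Vale.Agent.P152.ext_eq hd fun x y => ?_
    rw [mul_apply_eq_comp, ContinuousLinearMap.star_eq_adjoint,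
      ContinuousLinearMap.adjoint_inner_right, hU, hU, hin, wb, wb, wb, wb,
      one_apply_eq_self, he]
  have u2 : U * U' = 1 := by
    refine hext _ _ fun y => ?_
    have z : ((-1, 0) : ℤ × ℕ) + (1, 0) = 0 := by simp
    rw [mul_apply_eq_comp, hU', map_sub, hU, hU, add_assoc, add_assoc, z,
      one_apply_eq_self, add_zero, add_zero, e0]
    abel
  have u3 : star U = U' := by rw [← mul_one (star U), ← u2, ← mul_assoc, u1, one_mul]
  refine ⟨⟨T, U, e, hT1, ⟨u1, by rw [u3, u2]⟩, ?_, ?_, ?_, ?_, e0, ?_⟩⟩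
  · refine hext (T * U) (U * T) fun y => ?_
    rw [mul_apply_eq_comp, mul_apply_eq_comp, hU, hT, map_sub, map_sub, hT, hT,
      hU, hU, add_right_comm y, add_right_comm (0 : ℤ × ℕ)]
    abel
  · refine Vale.Agent.P152.ext_eq hd fun x y => ?_
    have hx : e x = e x - e 0 := by rw [e0, sub_zero]
    rw [mul_apply_eq_comp, ContinuousLinearMap.star_eq_adjoint,
      ContinuousLinearMap.adjoint_inner_right, hT, hU, hT, hin, wc, wc, wc, wc, hx, hin]
  · intro x y
    rw [hT, zero_add, sub_add_cancel]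
    exact congrArg e (Prod.ext (add_zero x).symm rfl)
  · intro x y
    rw [hU, zero_add, sub_add_cancel]
    rfl
  · intro p q
    have h2 : (⟪e p - e q, e p - e q⟫_ℂ).re = ‖e p - e q‖ ^ 2 := inner_self_eq_norm_sq (𝕜 := ℂ) _
    have d : ∀ r : ℤ × ℕ, r1W V r r = V (-r.2, 2 * r.2) := fun r =>
      congrArg V (Prod.ext (by simp only; ring) (by simp only; ring))
    rw [← h2, hin, Complex.ofReal_re, r1W_symm h q p, d, d]
    unfold r1W
    ring

end Vale.Agent.P153C
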