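import Vale.Agent.P153C.R0

/-! Contraction. m n = - sum f p f q V (q.1-p.1-p.2-n, q.2+p.2+2n) >= 0 (rp for f shifted by (0,n)). The form
B(f,g) = - sum f p g q V(q - th p) is symmetric (star) and positive on mean zero functions, so Cauchy-Schwarz
(discrim_le_zero on t f + g) with f shifted by (0,n) and g = f shifted by (-1,n+2) gives m(n+1)^2 <= m n * m(n+2).
m n <= C (1+n) (sub, incr, nonneg). Log-convex with linear growth forces m 1 <= m 0
(if m 1 > m 0: m 0 = 0 impossible by Cauchy-Schwarz, else m n >= m 0 * (m 1/m 0)^n). -/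

open MeasureTheory Filter Topology Set
open scoped InnerProductSpace ComplexConjugate

noncomputable section

namespace Vale.Agent.P153C

theorem r1a_push {ι α : Type} [DecidableEq α] (s : Finset ι) (φ : ι → α) (c : ι → ℝ)
    (g : α → ℝ) : ∑ p ∈ s.image φ, (∑ i ∈ s with φ i = p, c i) * g p = ∑ i ∈ s, c i * g (φ i) := by
  rw [← Finset.sum_fiberwise_of_maps_to (s := s) (t := s.image φ) (g := φ)
    fun i hi => Finset.mem_image_of_mem _ hi]
  refine Finset.sum_congr rfl fun p _ => ?_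
  rw [Finset.sum_mul]
  exact Finset.sum_congr rfl fun i hi => by rw [(Finset.mem_filter.1 hi).2]

theorem RPV.r1a_fam {V : ℤ × ℤ → ℝ} (h : RPV V) {ι : Type} (s : Finset ι) (φ : ι → ℤ × ℕ)
    (c : ι → ℝ) (hc : ∑ i ∈ s, c i = 0) : ∑ i ∈ s, ∑ j ∈ s,
      c i * c j * V ((φ j).1 - (φ i).1 - (φ i).2, (φ j).2 + (φ i).2) ≤ 0 := by
  have h1 := h.rp (s.image φ) (fun p => ∑ i ∈ s with φ i = p, c i) (by
    simpa [hc] using r1a_push s φ c fun _ => 1)
  simp only [mul_assoc, ← Finset.mul_sum, r1a_push] at h1 ⊢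
  exact h1

theorem r1a_seq {m : ℕ → ℝ} {A B : ℝ} (h0 : ∀ n, 0 ≤ m n)
    (h1 : ∀ (t : ℝ) n, 0 ≤ t * t * m n + 2 * t * m (n + 1) + m (n + 2))
    (h2 : ∀ n : ℕ, m n ≤ A + B * n) : m 1 ≤ m 0 := by
  by_contra hc
  rw [not_le] at hc
  obtain ⟨e, he, hd⟩ : ∃ e : ℝ, 0 < e ∧ 0 < m 1 - (1 + e) * m 0 := by
    have := h0 0
    refine ⟨(m 1 - m 0) / (m 0 + 1), div_pos (by linarith) (by linarith), ?_⟩
    have h3 : (m 1 - m 0) / (m 0 + 1) * m 0 < m 1 - m 0 := by
      rw [div_mul_eq_mul_div, div_lt_iff₀ (by linarith)]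
      nlinarith
    linarith
  set d := m 1 - (1 + e) * m 0
  have h3 : ∀ n, (1 + e) ^ n * d ≤ m (n + 1) - (1 + e) * m n := by
    intro n
    induction n with
    | zero => simp [d]
    | succ n ih =>
      have := h1 (-(1 + e)) n
      have h4 := mul_le_mul_of_nonneg_left ih (show 0 ≤ 1 + e by linarith)
      rw [pow_succ]
      nlinarith
  have hA : 0 ≤ A := by simpa using (h0 0).trans (h2 0)
  obtain ⟨k, hk⟩ := exists_nat_gt (max 1 ((A + 3 * |B|) / (e * e * d)))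
  have k1 : (1 : ℝ) < k := (le_max_left _ _).trans_lt hk
  have k2 := (div_lt_iff₀ (by positivity)).1 ((le_max_right _ _).trans_lt hk)
  have h4 : k * e ≤ (1 + e) ^ k := by
    linarith [one_add_mul_le_pow (show -2 ≤ e by linarith) k]
  have h5 : k * e * (k * e) ≤ (1 + e) ^ (k + k) := by
    rw [pow_add]
    exact mul_self_le_mul_self (by positivity) h4
  have h6 := h3 (k + k)
  have h7 := h2 (k + k + 1)
  have h8 := mul_nonneg (show 0 ≤ 1 + e by linarith) (h0 (k + k))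
  have h9 := mul_le_mul_of_nonneg_right h5 hd.le
  have h10 : B * ((k + k + 1 : ℕ) : ℝ) ≤ |B| * (3 * k) :=
    mul_le_mul (le_abs_self _) (by push_cast; linarith) (by positivity) (abs_nonneg _)
  have h11 := mul_lt_mul_of_pos_left k2 (show (0 : ℝ) < k by linarith)
  nlinarith

theorem RPV.contr {V : ℤ × ℤ → ℝ} (h : RPV V) (s : Finset (ℤ × ℕ)) (f : ℤ × ℕ → ℝ)
    (hf : ∑ p ∈ s, f p = 0) :
    ∑ p ∈ s, ∑ q ∈ s, f p * f q * V (q.1 - p.1 - p.2, q.2 + p.2) ≤
      ∑ p ∈ s, ∑ q ∈ s, f p * f q * V (q.1 - p.1 - p.2 - 1, q.2 + p.2 + 2) := by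
  have key := r1a_seq (m := fun n : ℕ =>
      -∑ p ∈ s, ∑ q ∈ s, f p * f q * V (q.1 - p.1 - p.2 - n, q.2 + p.2 + 2 * n))
    (A := ∑ p ∈ s, ∑ q ∈ s, |f p * f q| * (2 * V (q.1 - p.1 - p.2, q.2 + p.2)))
    (B := ∑ p ∈ s, ∑ q ∈ s, |f p * f q| * (2 * V (-1, 2))) (fun n => ?_) (fun t n => ?_)
    fun n => ?_
  · simpa using key
  · refine neg_nonneg.2 (le_of_eq_of_le ?_ (h.r1a_fam s (fun p => (p.1, p.2 + n)) f hf))
    refine Finset.sum_congr rfl fun p _ => Finset.sum_congr rfl fun q _ => ?_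
    refine congrArg (fun x => f p * f q * V x) (Prod.ext ?_ ?_) <;> push_cast <;> ring
  · have h1 := h.r1a_fam (s.disjSum s)
      (Sum.elim (fun p => (p.1, p.2 + n)) fun p => (p.1 - 1, p.2 + n + 2))
      (Sum.elim (fun p => t * f p) f) (by simp [← Finset.mul_sum, hf])
    simp only [Finset.sum_disjSum, Sum.elim_inl, Sum.elim_inr, Finset.sum_add_distrib] at h1
    refine le_of_le_of_eq (neg_nonneg.2 h1) ?_
    simp only [mul_neg, Finset.mul_sum, ← Finset.sum_neg_distrib, ← Finset.sum_add_distrib]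
    refine Finset.sum_congr rfl fun p _ => Finset.sum_congr rfl fun q _ => ?_
    push_cast
    ring_nf
  · simp only [Finset.sum_mul, ← Finset.sum_neg_distrib, ← Finset.sum_add_distrib]
    refine Finset.sum_le_sum fun p _ => Finset.sum_le_sum fun q _ => ?_
    have h1 := h.sub (q.1 - p.1 - p.2, q.2 + p.2) (-n, 2 * n)
    rw [Prod.mk_add_mk, ← sub_eq_add_neg] at h1
    have h2 := (h.incr n).2
    have h3 := h.nonneg (q.1 - p.1 - p.2 - n, q.2 + p.2 + 2 * n)
    have h4 := mul_le_mul_of_nonneg_right (neg_le_abs (f p * f q)) h3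
    have h5 := mul_le_mul_of_nonneg_left (h1.trans
      (add_le_add le_rfl (mul_le_mul_of_nonneg_left h2 zero_le_two))) (abs_nonneg (f p * f q))
    nlinarith

end Vale.Agent.P153C
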