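import Vale.Agent.P153C.R0

/-! The measure. mu from P152.exists_mu rho, xi = e (0,1), nu = (mu xi restricted to lam != 1).withDensity
|1-lam|^(-2). X p = continuous map chi p (zpow of a nonvanishing function), rho (X p) =: T_p satisfies
e (p+q) = T_p (e q) + e p (induction from e_T, e_U). So (1-T)(e p - e q) = (T_q - T_p) xi and IsMu.mul gives
|1-lam|^2 mu(e p - e q) = |chi p - chi q|^2 mu xi. The atom mu v {lam = 1} vanishes: on lam = 1 also u = 1, so it is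
at most |rho f v|^2 (IsMu.norm) for f = av p * av q, av p = (1/N) sum_{k<N} X p ^ k, N = 3m, and
rho (av p) (e p) = e (N p)/N, |e (N p)|^2 <= V (N p) <= C m (nrm with (0,0), lin). -/

open MeasureTheory Filter Topology Set
open scoped InnerProductSpace ComplexConjugate

noncomputable section

namespace Vale.Agent.P153C

variable {K : Type} [NormedAddCommGroup K] [InnerProductSpace ℂ K] [CompleteSpace K]

theorem r3_ne (z : DD) : z.1.2 ≠ 0 := norm_ne_zero_iff.1 (by rw [z.2.2.1]; exact one_ne_zero)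

/-- The characters as continuous maps. -/
def r3X (p : ℤ × ℕ) : C(DD, ℂ) :=
  ⟨chi p, (uF.continuous.zpow₀ p.1 fun z => Or.inl (r3_ne z)).mul (lamF.continuous.pow p.2)⟩

theorem r3_U (x : ℤ) (y : ℕ) : r3X (x + 1, y) = uF * r3X (x, y) := ContinuousMap.ext fun z => by
  show z.1.2 ^ (x + 1) * z.1.1 ^ y = z.1.2 * (z.1.2 ^ x * z.1.1 ^ y)
  rw [zpow_add_one₀ (r3_ne z)]
  ring

theorem r3_T (x : ℤ) (y : ℕ) : r3X (x, y + 1) = lamF * r3X (x, y) := ContinuousMap.ext fun z => by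
  show z.1.2 ^ x * z.1.1 ^ (y + 1) = z.1.1 * (z.1.2 ^ x * z.1.1 ^ y)
  ring

theorem r3_zero : r3X (0, 0) = 1 := ContinuousMap.ext fun z => by
  show z.1.2 ^ (0 : ℤ) * z.1.1 ^ 0 = 1
  rw [zpow_zero, pow_zero, one_mul]

theorem r3_coc {V : ℤ × ℤ → ℝ} (G : Gns V K) (ρ : C(DD, ℂ) →⋆ₐ[ℂ] (K →L[ℂ] K))
    (h1 : ρ lamF = G.T) (h2 : ρ uF = G.U) (p q : ℤ × ℕ) :
    G.e (p + q) = ρ (r3X p) (G.e q) + G.e p := by
  obtain ⟨x, y⟩ := p
  obtain ⟨a, b⟩ := q
  show G.e (x + a, y + b) = _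
  have inj : ∀ v w, G.U v = G.U w → v = w := fun v w e => by
    have e1 : ∀ v, (star G.U * G.U) v = v := fun v => by
      rw [(Unitary.mem_iff.1 G.U_uni).1]
      rfl
    rw [← e1 v, ← e1 w]
    exact congrArg (star G.U : K →L[ℂ] K) e
  induction y with
  | succ y ih =>
    rw [Nat.add_right_comm, G.e_T, ih, G.e_T x y, r3_T, map_mul, h1, map_add, add_assoc]
    rfl
  | zero =>
    have st : ∀ x : ℤ, G.e (x + 1 + a, 0 + b) = ρ (r3X (x + 1, 0)) (G.e (a, b)) + G.e (x + 1, 0) ↔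
        G.U (G.e (x + a, 0 + b)) = G.U (ρ (r3X (x, 0)) (G.e (a, b)) + G.e (x, 0)) := fun x => by
      rw [add_right_comm, G.e_U, G.e_U x, r3_U, map_mul, h2, map_add, ← add_assoc, add_left_inj]
      rfl
    induction x using Int.induction_on with
    | zero => rw [r3_zero, map_one, G.e_0, add_zero, zero_add, zero_add]; rfl
    | succ n ih => exact (st n).2 (congrArg G.U ih)
    | pred n ih => exact inj _ _ ((st _).1 (by rwa [sub_add_cancel]))

theorem r3_atom {V : ℤ × ℤ → ℝ} (h : RPV V) (G : Gns V K) {ρ : C(DD, ℂ) →⋆ₐ[ℂ] (K →L[ℂ] K)}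
    (h1 : ρ lamF = G.T) (h2 : ρ uF = G.U) {μ : K → Measure DD} (hμ : P152.IsMu ρ μ) (p : ℤ × ℕ) :
    ∀ᵐ z ∂μ (G.e p), z.1.1 ≠ 1 := by
  have := hμ.1
  have hA : MeasurableSet {z : DD | z.1.1 = 1} :=
    (isClosed_eq lamF.continuous continuous_const).measurableSet
  have e1 : ∀ N : ℕ, ρ (∑ k ∈ Finset.range N, r3X p ^ k) (G.e p) = G.e (N • p) := fun N => by
    induction N with
    | zero => rw [Finset.sum_range_zero, map_zero, zero_smul]; exact G.e_0.symm
    | succ N ih =>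
      rw [geom_sum_succ, succ_nsmul', r3_coc G ρ h1 h2, map_add, map_mul, map_one, ← ih]
      rfl
  have e2 : ∀ N : ℕ, (N : ℝ) ^ 2 * (μ (G.e p)).real {z : DD | z.1.1 = 1} ≤ ‖G.e (N • p)‖ ^ 2 :=
    fun N => by
      rw [← e1, hμ.norm]
      refine le_trans (le_of_eq ?_) (setIntegral_le_integral (s := {z : DD | z.1.1 = 1})
        (Continuous.integrable_of_hasCompactSupport
          ((∑ k ∈ Finset.range N, r3X p ^ k).continuous.norm.pow 2)
          (HasCompactSupport.of_compactSpace _)) (Eventually.of_forall fun z => sq_nonneg _))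
      rw [setIntegral_congr_fun hA (g := fun _ => (N : ℝ) ^ 2) fun z hz => ?_, setIntegral_const,
        smul_eq_mul, mul_comm]
      have a1 : z.1.1 = 1 := hz
      have a2 : z.1.2 = 1 := by
        have a3 := z.2.2.2
        rwa [a1, map_one, one_mul] at a3
      have a4 : r3X p z = 1 := by
        show z.1.2 ^ p.1 * z.1.1 ^ p.2 = 1
        rw [a1, a2, one_zpow, one_pow, one_mul]
      simp [a4]
  have e3 : ∀ q : ℤ × ℕ, ‖G.e q‖ ^ 2 ≤ V (q.1, q.2) := fun q => by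
    have a1 := G.nrm (0, 0) q
    have a2 := h.nonneg (-q.2, 2 * q.2)
    have a3 : V (0, 0) = 0 := h.zero
    rw [G.e_0, zero_sub, norm_neg] at a1
    simp only [Nat.cast_zero, sub_zero, add_zero, neg_zero, mul_zero, a3] at a1
    linarith only [a1, a2]
  obtain ⟨C, hC⟩ := h.lin (p.1, p.2)
  have e4 : ∀ m : ℕ, (3 * m : ℝ) ^ 2 * (μ (G.e p)).real {z : DD | z.1.1 = 1} ≤ C * m := fun m => by
    have a1 := (e2 (3 * m)).trans (e3 _)
    have a2 : V (((3 * m) • p).1, (((3 * m) • p).2 : ℕ)) = V (3 * m * p.1, 3 * m * p.2) := by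
      simp
    rw [a2] at a1
    push_cast at a1
    exact a1.trans (hC m)
  have e5 : (μ (G.e p)).real {z : DD | z.1.1 = 1} = 0 := by
    by_contra k
    have k0 := lt_of_le_of_ne measureReal_nonneg (Ne.symm k)
    obtain ⟨m, hm⟩ := exists_nat_gt (|C| / (μ (G.e p)).real {z : DD | z.1.1 = 1})
    have m0 : (0 : ℝ) < m := lt_of_le_of_lt (div_nonneg (abs_nonneg _) k0.le) hm
    rw [div_lt_iff₀ k0] at hm
    have a1 := e4 m
    have a2 := mul_lt_mul_of_pos_left ((le_abs_self C).trans_lt hm) m0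
    have a3 := mul_pos m0 (mul_pos m0 k0)
    nlinarith only [a1, a2, a3]
  rw [measureReal_eq_zero_iff] at e5
  exact measure_eq_zero_iff_ae_notMem.1 e5

theorem meas_of_gns {V : ℤ × ℤ → ℝ} (h : RPV V) (G : Gns V K)
    (ρ : C(DD, ℂ) →⋆ₐ[ℂ] (K →L[ℂ] K)) (h1 : ρ lamF = G.T) (h2 : ρ uF = G.U) :
    ∃ ν : Measure DD, (∀ᵐ z ∂ν, z.1.1 ≠ 1) ∧ ∀ p q : ℤ × ℕ,
      Integrable (fun z => ‖chi p z - chi q z‖ ^ 2) ν ∧
        ‖G.e p - G.e q‖ ^ 2 = ∫ z, ‖chi p z - chi q z‖ ^ 2 ∂ν := by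
  obtain ⟨μ, hμ⟩ := P152.exists_mu ρ
  have := hμ.1
  have hS : MeasurableSet {z : DD | z.1.1 ≠ 1} :=
    (isClosed_eq lamF.continuous continuous_const).measurableSet.compl
  have mw : ∀ f : C(DD, ℂ), Measurable fun z => ‖f z‖ₑ ^ 2 := fun f =>
    f.continuous.measurable.enorm.pow_const 2
  refine ⟨((μ (G.e (0, 1))).restrict {z : DD | z.1.1 ≠ 1}).withDensity
    (fun z => ‖(lamF - 1) z‖ₑ ^ 2)⁻¹,
    (withDensity_absolutelyContinuous _ _).ae_le (ae_restrict_mem hS), fun p q => ?_⟩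
  have e1 : ∀ p : ℤ × ℕ, G.T (G.e p) - G.e p = ρ (r3X p) (G.e (0, 1)) - G.e (0, 1) := fun p => by
    have a1 := r3_coc G ρ h1 h2 p (0, 1)
    have a2 : G.e (p + (0, 1)) = G.T (G.e p) + G.e (0, 1) := by
      rw [← G.e_T p.1 p.2]
      exact congrArg G.e (Prod.ext (add_zero _) rfl)
    rw [sub_eq_sub_iff_add_eq_add, ← a1, a2]
  have e2 : ρ (lamF - 1) (G.e p - G.e q) = ρ (r3X p - r3X q) (G.e (0, 1)) := by
    rw [map_sub ρ, map_sub ρ, map_one, h1]
    show G.T (G.e p - G.e q) - (G.e p - G.e q) = ρ (r3X p) (G.e (0, 1)) - ρ (r3X q) (G.e (0, 1))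
    rw [map_sub, sub_sub_sub_comm, e1, e1, sub_sub_sub_cancel_right]
  have e3 := hμ.mul (G.e p - G.e q) (lamF - 1)
  rw [e2, hμ.mul] at e3
  have e4 : ∀ᵐ z ∂μ (G.e p - G.e q), z.1.1 ≠ 1 :=
    hμ.null (A := range G.e) (fun φ ⟨r, hr⟩ => hr ▸ r3_atom h G h1 h2 hμ r)
      (subset_closure (Submodule.sub_mem _ (Submodule.subset_span ⟨p, rfl⟩)
        (Submodule.subset_span ⟨q, rfl⟩)))
  have e5 : ∫⁻ z, ‖(r3X p - r3X q) z‖ₑ ^ 2 ∂((μ (G.e (0, 1))).restrict
      {z : DD | z.1.1 ≠ 1}).withDensity (fun z => ‖(lamF - 1) z‖ₑ ^ 2)⁻¹ =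
      μ (G.e p - G.e q) univ := by
    rw [lintegral_withDensity_eq_lintegral_mul _ (mw _).inv (mw _), mul_comm,
      ← setLIntegral_withDensity_eq_setLIntegral_mul _ (mw _) (mw _).inv hS, e3,
      setLIntegral_withDensity_eq_setLIntegral_mul _ (mw _) (mw _).inv hS,
      setLIntegral_congr_fun hS (g := fun _ => 1) fun z hz => ?_,
      Measure.restrict_eq_self_of_ae_mem (s := {z : DD | z.1.1 ≠ 1}) e4, lintegral_one]
    refine ENNReal.mul_inv_cancel (pow_ne_zero 2 ?_) (ENNReal.pow_ne_top enorm_ne_top)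
    exact fun e => hz (sub_eq_zero.1 (enorm_eq_zero.1 e))
  have e6 := hμ.norm (G.e p - G.e q) 1
  have m0 : Measurable fun z => (chi p z - chi q z) ^ 2 :=
    (r3X p - r3X q).continuous.measurable.pow_const 2
  have e7 := (lintegral_congr fun z => enorm_pow (chi p z - chi q z) 2).trans e5
  simp only [← norm_pow]
  refine ⟨Integrable.norm ⟨m0.aestronglyMeasurable, e7.trans_lt (measure_lt_top _ _)⟩, ?_⟩
  rw [integral_norm_eq_lintegral_enorm m0.aestronglyMeasurable]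
  refine Eq.trans ?_ (congrArg ENNReal.toReal e7).symm
  rw [map_one] at e6
  simpa [Measure.real] using e6

end Vale.Agent.P153C
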