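import Vale.Agent.P153C.R1
import Vale.Agent.P153C.R2
import Vale.Agent.P153C.R3
import Vale.Agent.P153C.R4

/-! Polar coordinates. -/

open MeasureTheory Filter Topology Set
open scoped InnerProductSpace ComplexConjugate

noncomputable section

namespace Vale.Agent.P153C

open Classical in
/-- Polar coordinates on the joint spectrum. -/
def R5_pol (z : DD) : ℝ × ℝ :=
  (‖z.1.1‖, if z.1.1 = 0 then Complex.arg z.1.2 / 2 else Complex.arg z.1.1)

theorem R5_meas : Measurable R5_pol := by
  have h1 : Measurable fun z : DD => z.1.1 := measurable_fst.comp measurable_subtype_coe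
  have h2 : Measurable fun z : DD => z.1.2 := measurable_snd.comp measurable_subtype_coe
  exact h1.norm.prodMk (Measurable.ite (h1 (measurableSet_singleton 0))
    ((Complex.measurable_arg.comp h2).div_const 2) (Complex.measurable_arg.comp h1))

theorem R5_lam (z : DD) :
    z.1.1 = ((R5_pol z).1 : ℂ) * Complex.exp ((R5_pol z).2 * Complex.I) := by
  by_cases h : z.1.1 = 0
  · simp [R5_pol, h]
  · simp only [R5_pol, if_neg h]
    exact (Complex.norm_mul_exp_arg_mul_I _).symm

theorem R5_u (z : DD) : z.1.2 = Complex.exp (2 * (R5_pol z).2 * Complex.I) := by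
  by_cases h : z.1.1 = 0
  · have := Complex.norm_mul_exp_arg_mul_I z.1.2
    rw [z.2.2.1, Complex.ofReal_one, one_mul] at this
    simp only [R5_pol, if_pos h]
    rw [← this]
    congr 1
    rw [this]
    push_cast
    ring
  · have e := z.2.2.2
    have h1 := R5_lam z
    set φ := (R5_pol z).2
    set r := (R5_pol z).1
    have hr : (r : ℂ) ≠ 0 := fun h0 => h (by rw [h1, h0, zero_mul])
    rw [h1, map_mul, Complex.conj_ofReal, ← Complex.exp_conj, map_mul, Complex.conj_ofReal,
      Complex.conj_I, mul_assoc] at e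
    have e2 := mul_left_cancel₀ hr e
    have e3 : Complex.exp (φ * Complex.I) * Complex.exp (φ * -Complex.I) = 1 := by
      rw [← Complex.exp_add]
      simp
    calc z.1.2 = Complex.exp (φ * Complex.I) * (Complex.exp (φ * -Complex.I) * z.1.2) := by
          rw [← mul_assoc, e3, one_mul]
      _ = _ := by
          rw [e2, ← Complex.exp_add]
          congr 1
          ring

theorem R5_chi (x : ℤ) (y : ℕ) (z : DD) : (chi (x, y) z).re = ch x y (R5_pol z) := by
  have e : chi (x, y) z = (((R5_pol z).1 ^ y : ℝ) : ℂ) *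
      Complex.exp ((((2 * x + y) * (R5_pol z).2 : ℝ) : ℂ) * Complex.I) := by
    have h1 := R5_lam z
    have h2 := R5_u z
    set φ := (R5_pol z).2
    set r := (R5_pol z).1
    show z.1.2 ^ x * z.1.1 ^ y = _
    rw [h1, h2, mul_pow, ← Complex.exp_int_mul, ← Complex.exp_nat_mul, mul_left_comm,
      ← Complex.exp_add]
    push_cast
    congr 2
    ring
  rw [e, Complex.re_ofReal_mul, Complex.exp_ofReal_mul_I_re]
  rfl

theorem R5_dom {z : DD} (hz : z.1.1 ≠ 1) : R5_pol z ∈ Dom := by
  refine ⟨⟨norm_nonneg _, z.2.1⟩, ?_, fun h => hz ?_⟩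
  · have h1 := Complex.neg_pi_lt_arg z.1.2
    have h2 := Complex.arg_le_pi z.1.2
    have h3 := Real.pi_pos
    simp only [R5_pol]
    split_ifs
    · constructor <;> linarith
    · exact ⟨(Complex.neg_pi_lt_arg _).le, Complex.arg_le_pi _⟩
  · rw [R5_lam z, h]
    simp

theorem R5_Dom : MeasurableSet Dom :=
  (measurable_fst measurableSet_Icc).inter ((measurable_snd measurableSet_Icc).inter
    (measurableSet_singleton _).compl)

theorem rep {V : ℤ × ℤ → ℝ} (h : RPV V) : ∃ ν A, Rep V ν A := by
  obtain ⟨K, _, _, _, ⟨G⟩⟩ := gns h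
  obtain ⟨ρ, h1, h2⟩ := jspec G.T_le G.U_uni G.comm G.adj
  obtain ⟨ν, hν, h3⟩ := meas_of_gns h G ρ h1 h2
  obtain ⟨A, hA, h4⟩ := lk h (ν := ν) fun p q => ⟨(h3 p q).1, by rw [← G.nrm, (h3 p q).2]⟩
  have hm : ∀ (x : ℤ) (y : ℕ), Measurable (ch x y) := fun x y => by
    unfold ch
    fun_prop
  have hi : ∀ (x : ℤ) (y : ℕ), Integrable (fun m => 1 - ch x y m) (ν.map R5_pol) := fun x y => by
    rw [integrable_map_measure ((hm x y).const_sub 1).aestronglyMeasurable
      R5_meas.aemeasurable]
    refine (h4 (x, y)).1.congr (Eventually.of_forall fun z => ?_)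
    simp only [Function.comp_apply, R5_chi]
  refine ⟨ν.map R5_pol, A, ?_, ?_, hA, fun x y => ⟨hi x y, ?_⟩⟩
  · exact (ae_map_iff R5_meas.aemeasurable R5_Dom).2 (hν.mono fun z hz => R5_dom hz)
  · refine (hi 0 1).congr (Eventually.of_forall fun m => ?_)
    simp [ch, gp]
  · rw [integral_map R5_meas.aemeasurable
      (((hm x y).const_sub 1).const_mul 2).aestronglyMeasurable]
    simpa only [R5_chi] using (h4 (x, y)).2

end Vale.Agent.P153C
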