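import Mathlib

/-! Uniform odd Lipschitz heights on hexagons of the triangular lattice. -/

noncomputable section

namespace Vale.Agent.P153C

/-- The vertex `x (1, 0) + y (1/2, √3/2)` of the unit triangular lattice, as a complex number. -/
def pos (p : ℤ × ℤ) : ℂ := ⟨p.1 + p.2 / 2, p.2 * √3 / 2⟩

/-- The hexagon of radius `n` (graph distance at most `n` from the origin). -/
def hex (n : ℕ) : Set (ℤ × ℤ) := {p | |p.1| ≤ n ∧ |p.2| ≤ n ∧ |p.1 + p.2| ≤ n}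

/-- Odd heights, equal to `1` outside the hexagon, differing by at most `2` along every edge. -/
def Adm (n : ℕ) : Set (ℤ × ℤ → ℤ) :=
  {h | (∀ p, Odd (h p)) ∧ (∀ p, p ∉ hex n → h p = 1) ∧ ∀ x y : ℤ,
    |h (x + 1, y) - h (x, y)| ≤ 2 ∧ |h (x, y + 1) - h (x, y)| ≤ 2 ∧
      |h (x - 1, y + 1) - h (x, y)| ≤ 2}

/-- The mean of `(h p - h q) ^ 2` for `h` uniform in `Adm n`. -/
def var (n : ℕ) (p q : ℤ × ℤ) : ℝ :=
  (∑ᶠ h ∈ Adm n, ((h p - h q : ℤ) : ℝ) ^ 2) / (Adm n).ncard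

end Vale.Agent.P153C
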